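import Vale.Agent.P207.H639.Gram1

/-!
# P207: the quadratic form of local `α`-fields on the tower, in terms of the norms
-/

noncomputable section

namespace Vale.Agent.P207.H639

open Vale.Agent.P207.H662

/-- the value of the quadratic form (per `|x₀|²`) of the field `F = α₁ X x₀ + α₄ x₃`,
`G = α₂ x₀ + α₃ x₂`, in terms of the normalised norms of the tower -/
def qT (e d a1 a2 a3 a4 b1 b2 b3 b4 c2 c3 c5 w1 v1 w3 v3 α1 α2 α3 α4 : ℝ) : ℝ :=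
    α1 ^ 2 * (-12 * v1 - 10 * w1 - 10 * a1 * b2 - 4 * d * v1 - 2 * d * w1 - 3 * e * v1 - 3 * e *
    w1 - 3 * a1 * a2 * e - 20 * a1 * b1 * c3 - 2 * a1 * b1 * e - 2 * a1 * b2 * d - 3 * a1 * b2 *
    e - a1 ^ 2 * e - b1 ^ 2 * e - 4 * a1 * b1 * c3 * d - 6 * a1 * b1 * c3 * e) + α1 * α2 * (-24
    * b1 + 6 * v1 + 4 * w1 - 6 * a1 * b1 + 10 * a1 * b2 - 12 * a1 * e - 8 * b1 * d - 12 * b1 * e
    - 6 * b1 ^ 2 + 2 * d * v1 + 14 * a1 * b1 * c3 - 2 * a1 * b1 * d - 4 * a1 * b1 * e + 2 * a1 *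
    b2 * d - 2 * a1 ^ 2 * e - 2 * b1 ^ 2 * d - 2 * b1 ^ 2 * e + 2 * a1 * b1 * c3 * d) + α1 * α3
    * (6 * a1 * a2 * b1 - 10 * a1 * a2 * b2 + 12 * a1 * a2 * e - 10 * a1 * b2 * c2 - 4 * a1 * a2
    * b1 * c3 + 2 * a1 * a2 * b1 * d + 2 * a1 * a2 * b1 * e - 2 * a1 * a2 * b2 * d - 4 * a1 * b1
    * c2 * c3 - 2 * a1 * b2 * c2 * d + 2 * a1 ^ 2 * a2 * e) + α1 * α4 * (6 * a1 * a2 * a3 * e) +
    α1 * (2 * a1 * e + 2 * b1 * e) + α2 ^ 2 * (6 * b1 - 6 * v1 - 4 * w1 + 6 * a1 * b1 - 10 * a1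
    * b2 + 2 * a1 * e + 2 * b1 * d + 2 * b1 * e + 6 * b1 ^ 2 - 2 * d * v1 - e * v1 - e * w1 - a1
    * a2 * e - 14 * a1 * b1 * c3 + 2 * a1 * b1 * d + 2 * a1 * b1 * e - 2 * a1 * b2 * d - a1 * b2
    * e + a1 ^ 2 * e + 2 * b1 ^ 2 * d + b1 ^ 2 * e - 2 * a1 * b1 * c3 * d - 2 * a1 * b1 * c3 *
    e) + α2 * α3 * (-6 * a1 * a2 * b1 + 20 * a1 * a2 * b2 - 14 * a1 * a2 * b3 - 4 * a1 * a2 * e
    + 6 * a1 * b2 * c2 + 14 * a1 * a2 * b1 * c3 - 2 * a1 * a2 * b1 * d - 2 * a1 * a2 * b1 * e +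
    4 * a1 * a2 * b2 * d + 2 * a1 * a2 * b2 * e - 2 * a1 * a2 * b3 * d + 2 * a1 * a2 ^ 2 * e + 2
    * a1 * b2 * c2 * d - 2 * a1 ^ 2 * a2 * e + 2 * a1 * a2 * b1 * c3 * d + 2 * a1 * a2 * b1 * c3
    * e) + α2 * α4 * (2 * a1 * a2 * a3 * e) + α2 * (-18 * b1 + 8 * e - 2 * a1 * e - 6 * b1 * d -
    2 * b1 * e) + α3 ^ 2 * (-14 * v3 - 4 * w3 - 2 * d * v3 - e * v3 - e * w3 + 14 * a1 * a2 * b3
    + 14 * a1 * a2 * a3 * b3 - 18 * a1 * a2 * a3 * b4 + 4 * a1 * a2 * a3 * e - 6 * a1 * a2 * b2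
    * c2 + 2 * a1 * a2 * b3 * d + 4 * a1 * a2 * b3 * e + 14 * a1 * a2 * b3 ^ 2 - 10 * a1 * a2 ^
    2 * b2 + 14 * a1 * a2 ^ 2 * b3 + 2 * a1 * a2 ^ 2 * e + 4 * a1 * b2 * c2 ^ 2 - a1 * a2 * a3 *
    a4 * e - 22 * a1 * a2 * a3 * b3 * c5 + 2 * a1 * a2 * a3 * b3 * d + 2 * a1 * a2 * a3 * b3 * e
    - 2 * a1 * a2 * a3 * b4 * d - a1 * a2 * a3 * b4 * e + a1 * a2 * a3 ^ 2 * e - 2 * a1 * a2 *
    b2 * c2 * d + 2 * a1 * a2 * b3 ^ 2 * d + a1 * a2 * b3 ^ 2 * e - 2 * a1 * a2 ^ 2 * b2 * d -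
    a1 * a2 ^ 2 * b2 * e + 2 * a1 * a2 ^ 2 * b3 * d - a1 * a2 ^ 3 * e + a1 * b2 * c2 ^ 2 * e +
    a1 ^ 2 * a2 ^ 2 * e - 2 * a1 * a2 * a3 * b3 * c5 * d - 2 * a1 * a2 * a3 * b3 * c5 * e) + α3
    * α4 * (18 * a1 * a2 * a3 * b4 - 20 * a1 * a2 * a3 * e + 18 * a1 * a2 * a3 * b3 * c5 - 2 *
    a1 * a2 * a3 * b3 * e + 2 * a1 * a2 * a3 * b4 * d - 2 * a1 * a2 * a3 ^ 2 * e - 2 * a1 * a2 ^
    2 * a3 * e + 2 * a1 * a2 * a3 * b3 * c5 * d) + α4 ^ 2 * (-18 * a1 * a2 * a3 * b4 - 5 * a1 *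
    a2 * a3 * a4 * e - 2 * a1 * a2 * a3 * b4 * d - 5 * a1 * a2 * a3 * b4 * e - 3 * a1 * a2 * a3
    ^ 2 * e)

variable {W : Type*} [AddCommGroup W] [Module ℝ W] {L : Lad W}

namespace Tw

variable (T : Tw L)

theorem E_od (p1 r1 p3 r3 : ℝ) : L.L1.E (T.od p1 r1 p3 r3) =
    T.ev (-(L.d + 3) * (T.b1 * r1)) (-L.e * p1 - (L.d + 7) * (T.b3 * r3))
      (-(L.e + L.d + 5) * p1 - 2 * (T.c2 * r3)) (-(L.e + 2) * r1) (-(L.e + L.d + 3) * r1)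
      (-L.e * p3) (-(L.e + L.d + 9) * p3) (-(L.e + 2) * r3) (-(L.e + L.d + 7) * r3) := by
  rw [E_form, D_od, X_od, X_od, D_ev]
  unfold ev
  module

theorem E_ev (p0 p2 : ℝ) : L.L1.E (T.ev p0 p2 0 0 0 0 0 0 0) =
    T.od (-L.e * p0) (-(L.e + L.d + 3) * p0) (-L.e * p2) (-(L.e + L.d + 7) * p2) := by
  rw [E_form, D_ev, X_ev]
  simp only [mul_zero]
  rw [X_ev, D_od]
  unfold od
  module

theorem skew_oe (he : 0 < L.e) (hd : 0 < L.d) (p1 r1 p3 r3 p0 p2 : ℝ) :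
    (-T.a1 * p1 - T.b1 * r1) * p0 * L.ip T.x0 T.x0 +
      (p1 - T.a3 * p3 - T.b3 * r3) * p2 * L.ip T.x2 T.x2 =
    -(p1 * (p0 - T.a2 * p2) * L.ip T.x1 T.x1 + r1 * p0 * L.ip T.y1 T.y1 +
      p3 * p2 * L.ip T.x3 T.x3 + r3 * p2 * L.ip T.y3 T.y3) := by
  have h := L.skew (T.od p1 r1 p3 r3) (T.ev p0 p2 0 0 0 0 0 0 0)
  rw [X_od, X_ev, T.ip_ev he hd, T.ip_od he hd] at h
  linear_combination h

variable (he : 0 < L.e) (hd : 0 < L.d)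

include he hd

theorem n_x1 : L.ip T.x1 T.x1 = T.a1 * L.ip T.x0 T.x0 := by
  linear_combination T.skew_oe he hd 1 0 0 0 1 0

theorem n_y1 : L.ip T.y1 T.y1 = T.b1 * L.ip T.x0 T.x0 := by
  linear_combination T.skew_oe he hd 0 1 0 0 1 0

theorem n_x2 : L.ip T.x2 T.x2 = T.a2 * (T.a1 * L.ip T.x0 T.x0) := by
  linear_combination T.skew_oe he hd 1 0 0 0 0 1 + T.a2 * T.n_x1 he hd

theorem n_x3 : L.ip T.x3 T.x3 = T.a3 * (T.a2 * (T.a1 * L.ip T.x0 T.x0)) := by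
  linear_combination T.skew_oe he hd 0 0 1 0 0 1 + T.a3 * T.n_x2 he hd

theorem n_y3 : L.ip T.y3 T.y3 = T.b3 * (T.a2 * (T.a1 * L.ip T.x0 T.x0)) := by
  linear_combination T.skew_oe he hd 0 0 0 1 0 1 + T.b3 * T.n_x2 he hd

end Tw

/-- the other norms of the tower -/
structure Nr (T : Tw L) (a4 b2 b4 c3 c5 w1 v1 w3 v3 : ℝ) : Prop where
  x4 : L.ip T.x4 T.x4 = a4 * (T.a3 * (T.a2 * (T.a1 * L.ip T.x0 T.x0)))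
  y2 : L.ip T.y2 T.y2 = b2 * (T.a1 * L.ip T.x0 T.x0)
  y4 : L.ip T.y4 T.y4 = b4 * (T.a3 * (T.a2 * (T.a1 * L.ip T.x0 T.x0)))
  yw1 : L.ip T.y2 T.w1 = c3 * (T.a1 * (T.b1 * L.ip T.x0 T.x0))
  yw3 : L.ip T.y4 T.w3 = c5 * (T.a3 * (T.b3 * (T.a2 * (T.a1 * L.ip T.x0 T.x0))))
  w1 : L.ip T.w1 T.w1 = w1 * L.ip T.x0 T.x0
  v1 : L.ip T.v1 T.v1 = v1 * L.ip T.x0 T.x0
  w3 : L.ip T.w3 T.w3 = w3 * L.ip T.x0 T.x0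
  v3 : L.ip T.v3 T.v3 = v3 * L.ip T.x0 T.x0

theorem qf_eq (he : 0 < L.e) (hd : 0 < L.d) {T : Tw L} {a4 b2 b4 c3 c5 w1 v1 w3 v3 : ℝ}
    (hN : Nr T a4 b2 b4 c3 c5 w1 v1 w3 v3) (α1 α2 α3 α4 : ℝ) :
    L.L1.qf T.x0 (α1 • L.X T.x0 + α4 • T.x3) (α2 • T.x0 + α3 • T.x2) =
      qT L.e L.d T.a1 T.a2 T.a3 a4 T.b1 b2 T.b3 b4 T.c2 c3 c5 w1 v1 w3 v3 α1 α2 α3 α4 *
        L.ip T.x0 T.x0 := by
  have hF : α1 • L.X T.x0 + α4 • T.x3 = T.od α1 α1 α4 0 := by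
    rw [T.X0]; unfold Tw.od; module
  have hG : α2 • T.x0 + α3 • T.x2 = T.ev α2 α3 0 0 0 0 0 0 0 := by
    unfold Tw.ev; module
  have hX : L.X T.x0 = T.od 1 1 0 0 := by
    rw [T.X0]; unfold Tw.od; module
  have hx : -(2 : ℝ) • T.x0 = T.ev (-2) 0 0 0 0 0 0 0 0 := by
    unfold Tw.ev; module
  have hr : L.X (T.od α1 α1 α4 0) - (1 : ℝ) • T.ev α2 α3 0 0 0 0 0 0 0 =
      T.ev ((-T.a1 * α1 - T.b1 * α1) - α2) ((α1 - T.a3 * α4) - α3) α1 α1 α1 α4 α4 0 0 := by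
    rw [Tw.X_od]; unfold Tw.ev; module
  have hs : L.X (T.ev α2 α3 0 0 0 0 0 0 0) - T.od α1 α1 α4 0 =
      T.od ((α2 - T.a2 * α3) - α1) (α2 - α1) (α3 - α4) α3 := by
    rw [Tw.X_ev]; unfold Tw.od; module
  rw [Lad1.qf, hF, hG, hr, hs, hX, hx]
  unfold Lad1.inn Lad1.nsq
  simp only [S_form L.L1 L.skew, Tw.D_od, Tw.D_ev, Tw.X_od, mul_zero]
  simp only [Tw.X_ev, Tw.E_od, Tw.E_ev, Tw.D_od]
  simp only [Tw.ip_ev T he hd, Tw.ip_od T he hd, T.n_x1 he hd, T.n_y1 he hd, T.n_x2 he hd,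
    T.n_x3 he hd, T.n_y3 he hd, hN.x4, hN.y2, hN.y4, hN.yw1, hN.yw3, hN.w1, hN.v1, hN.w3, hN.v3]
  unfold qT
  ring

end Vale.Agent.P207.H639
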